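import Vale.Agent.P225.Assembly.Ideal

/-!
P225, assembly: over the last dwell the free rates outside the band beat those on the band.
-/

noncomputable section

namespace Vale.Agent.P225.Residual

open Matrix SU2 Set Real Filter Vale.Agent.P225.Trunc
open scoped ComplexOrder Topology

variable {d : PathData} {r₂ β φ₀ : ℝ}

/-- The drift of the scale and of the damping is small for `j₀` large. -/
theorem drift_le (hd : d.Good r₂ β φ₀) {s : ℝ} (hs : (d.j₀ : ℝ) ^ 6 ≤ s) :
    27 / 4 - d.scale s + (5 - pathNu d s) ≤ 13 * (d.j₀ : ℝ) ^ (-(1 / 5) : ℝ) := by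
  have hj : (1 : ℝ) ≤ d.j₀ := by exact_mod_cast hd.j₀_pos
  have hj6 : (1 : ℝ) ≤ (d.j₀ : ℝ) ^ 6 := one_le_pow₀ hj
  have hjs : (d.j₀ : ℝ) ^ 6 - 1 ≤ s := by linarith
  set g : ℝ → ℝ := fun u => d.scale u * Real.exp (5 / 3 * φ₀ * (1 + u) ^ (-(1 / 5) : ℝ))
  have hg : ∀ u, s ≤ u → HasDerivAt g 0 u := fun u hu => by
    have h1 : (0 : ℝ) < 1 + u := by linarith
    have hP : HasDerivAt d.scale (deriv d.scale u) u :=
      ((hd.scale_smooth.differentiable (by norm_num)) u).hasDerivAt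
    have hE := ((((hasDerivAt_id u).const_add 1).rpow_const
      (p := (-(1 / 5) : ℝ)) (Or.inl h1.ne')).const_mul (5 / 3 * φ₀)).exp
    refine (hP.mul hE).congr_deriv ?_
    rw [hd.scale_deriv u (by linarith), show (-(1 / 5) : ℝ) - 1 = -(6 / 5) by norm_num]
    simp only [id]
    ring
  have hconst : ∀ T, s ≤ T → g T = g s := fun T hT =>
    constant_of_has_deriv_right_zero (fun u hu => (hg u hu.1).continuousAt.continuousWithinAt)
      (fun u hu => (hg u hu.1).hasDerivWithinAt) T (right_mem_Icc.2 hT)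
  have hlim : Tendsto g atTop (𝓝 (27 / 4)) := by
    have h0 : Tendsto (fun u : ℝ => (1 + u) ^ (-(1 / 5) : ℝ)) atTop (𝓝 0) :=
      (tendsto_rpow_neg_atTop (by norm_num : (0 : ℝ) < 1 / 5)).comp
        (tendsto_atTop_add_const_left _ 1 tendsto_id)
    have := hd.scale_lim.mul
      ((Real.continuous_exp.tendsto _).comp (h0.const_mul (5 / 3 * φ₀)))
    simpa [g, Function.comp_def] using this
  have heq : g s = 27 / 4 := (tendsto_nhds_unique (hlim.congr'
    (eventually_atTop.2 ⟨s, fun T hT => hconst T hT⟩)) tendsto_const_nhds).symm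
  set x := 5 / 3 * φ₀ * (1 + s) ^ (-(1 / 5) : ℝ)
  have h1s : (1 : ℝ) ≤ 1 + s := by linarith
  have hx0 : 0 ≤ x := mul_nonneg (mul_nonneg (by norm_num) hd.φ₀_pos.le)
    (Real.rpow_nonneg (by linarith) _)
  have hP : d.scale s = 27 / 4 * Real.exp (-x) := by
    rw [← heq, mul_assoc, ← Real.exp_add, add_neg_cancel, Real.exp_zero, mul_one]
  have hν : 5 - pathNu d s ≤ φ₀ * (1 + s) ^ (-(1 / 5) : ℝ) := by
    rw [pathNu, hd.scale_deriv s hjs]
    have hne := (hd.scale_pos s).ne'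
    rw [show 5 - (5 - 3 * (d.scale s * (φ₀ * (1 + s) ^ (-(6 / 5) : ℝ)) / 3) / d.scale s) =
      φ₀ * (1 + s) ^ (-(6 / 5) : ℝ) by field_simp; ring]
    exact mul_le_mul_of_nonneg_left (Real.rpow_le_rpow_of_exponent_le h1s (by norm_num))
      hd.φ₀_pos.le
  have hδ : 27 / 4 - d.scale s ≤ 27 / 4 * x := by
    rw [hP]
    nlinarith [Real.add_one_le_exp (-x)]
  have hpow : φ₀ * (1 + s) ^ (-(1 / 5) : ℝ) ≤ (d.j₀ : ℝ) ^ (-(1 / 5) : ℝ) := by
    have h2 : (1 + s) ^ (-(1 / 5) : ℝ) ≤ ((d.j₀ : ℝ) ^ 6) ^ (-(1 / 5) : ℝ) :=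
      Real.rpow_le_rpow_of_nonpos (by linarith) (by linarith) (by norm_num)
    refine (mul_le_mul hd.φ₀_le h2 (Real.rpow_nonneg (by linarith) _) (by linarith)).trans
      (le_of_eq ?_)
    rw [← Real.rpow_natCast (d.j₀ : ℝ) 6, ← Real.rpow_mul (by linarith)]
    nth_rewrite 1 [← Real.rpow_one (d.j₀ : ℝ)]
    rw [← Real.rpow_add (by linarith)]
    norm_num
  have h0 : 0 ≤ (d.j₀ : ℝ) ^ (-(1 / 5) : ℝ) := Real.rpow_nonneg (by linarith) _
  simp only [x] at hδ
  nlinarith

/-- In the dwell of a cluster all parameters equal the scale. -/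
theorem basePar_dwell (hd : d.Good r₂ β φ₀) {i : ℕ} {u : ℝ}
    (hu : u ∈ Icc (stageStart d i (d.plan (d.j₀ + i)).length) (clusterStart d (i + 1)))
    (k : Fin 3) :
    basePar d u k = d.scale u := by
  rcases hu.2.lt_or_eq with h | h
  · rw [Free.basePar_of_eq (Free.pathQ_late hd
      (by linarith [(stageStart_ge hd (l := (d.plan (d.j₀ + i)).length) le_rfl).trans hu.1])
      (not_inStage_dwell hd ⟨hu.1, h⟩))]
  · subst h
    have hne : 0 < (d.plan (d.j₀ + (i + 1))).length := List.length_pos_iff.2 (hd.isPlan.nonempty _)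
    have hm : clusterStart d (i + 1) ∈
        Ico (stageStart d (i + 1) 0) (stageStart d (i + 1) (0 + 1)) := by
      rw [← stageStart_zero (d := d) (i + 1)]
      exact ⟨le_rfl, stageStart_lt_succ hd hne⟩
    rw [Free.basePar_stage hd hne hm, stageStart_zero, sub_self, mul_zero,
      Free.stageTheta_start _ (by norm_num), Free.linePar_one]

theorem cas4_even {y : Lbl} (h0 : y 0 % 2 = 0) (h1 : y 1 % 2 = 0) (h2 : y 2 % 2 = 0) :
    cas4 y % 8 = 0 := by
  have key : ∀ a : ℕ, a % 2 = 0 → a * (a + 2) % 8 = 0 := fun a ha => by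
    obtain ⟨m, rfl⟩ : ∃ m, a = 2 * m := ⟨a / 2, by omega⟩
    obtain ⟨c, hc⟩ : Even (m * (m + 1)) := Nat.even_mul_succ_self m
    rw [show 2 * m * (2 * m + 2) = 4 * (m * (m + 1)) by ring, hc]
    omega
  have := key _ h0
  have := key _ h1
  have := key _ h2
  rw [cas4, Fin.sum_univ_three]
  omega

/-- Every triple outside the band is above every band triple. -/
theorem cas4_gap {y : Lbl} (hy : LblOK y) (h0 : y ≠ 0) (hb : y ∉ band) : 403 ≤ cas4 y := by
  rw [mem_band, InBand] at hb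
  have hlt : cut y < cas4 y := by
    by_contra h
    exact hb ⟨hy, by omega, h0⟩
  unfold cut at hlt
  split_ifs at hlt with h
  · simp only [Prod.mk.injEq] at h
    have := cas4_even h.1 h.2.1 h.2.2
    omega
  · omega

theorem cas4_band {t : Lbl} (ht : t ∈ band) : cas4 t ≤ 402 := by
  obtain ⟨-, h, -⟩ := mem_band.1 ht
  refine h.trans ?_
  unfold cut
  split_ifs <;> omega

theorem expo_mono {a b : Lbl} (h : cas4 a ≤ cas4 b) : expo (27 / 4) a ≤ expo (27 / 4) b := by
  unfold expo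
  have : (cas4 a : ℝ) ≤ cas4 b := by exact_mod_cast h
  have := Real.sqrt_le_sqrt (show (25 : ℝ) + 27 / 4 * cas4 a ≤ 25 + 27 / 4 * cas4 b by linarith)
  linarith

/-- The gap between the band and its outside, after any small relative loss. -/
theorem exists_gap : ∃ γ θ : ℝ, 0 < γ ∧ 0 < θ ∧ ∀ t ∈ band, ∀ y : Lbl, LblOK y → y ≠ 0 →
    y ∉ band → expo (27 / 4) t + γ ≤ expo (27 / 4) y - θ * Real.sqrt (casSum y) := by
  set e : ℝ → ℝ := fun n => (-5 + Real.sqrt (25 + 27 / 4 * n)) / 2 with he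
  have hlt : e 402 < e 403 := by
    have := Real.sqrt_lt_sqrt (show (0 : ℝ) ≤ 25 + 27 / 4 * 402 by norm_num)
      (show (25 : ℝ) + 27 / 4 * 402 < 25 + 27 / 4 * 403 by norm_num)
    simp only [he]
    linarith
  have hpos : 0 ≤ e 402 := by
    have : (5 : ℝ) ≤ Real.sqrt (25 + 27 / 4 * 402) := Real.le_sqrt_of_sq_le (by norm_num)
    simp only [he]
    linarith
  refine ⟨(e 403 - e 402) / 2, (e 403 - e 402) / (8 * e 403), by linarith,
    div_pos (by linarith) (by linarith), fun t ht y hy h0 hb => ?_⟩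
  have h1 : expo (27 / 4) t ≤ e 402 := by
    have : (cas4 t : ℝ) ≤ 402 := by exact_mod_cast cas4_band ht
    have := Real.sqrt_le_sqrt (show (25 : ℝ) + 27 / 4 * cas4 t ≤ 25 + 27 / 4 * 402 by linarith)
    simp only [he, expo]
    linarith
  have h2 : e 403 ≤ expo (27 / 4) y := by
    have : (403 : ℝ) ≤ cas4 y := by exact_mod_cast cas4_gap hy h0 hb
    have := Real.sqrt_le_sqrt (show (25 : ℝ) + 27 / 4 * 403 ≤ 25 + 27 / 4 * cas4 y by linarith)
    simp only [he, expo]
    linarith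
  have hq : Real.sqrt (casSum y) ≤ 4 * expo (27 / 4) y := by
    have hS : (0 : ℝ) ≤ casSum y := Trunc.casSum_nonneg y
    rw [expo_eq_rootRate]
    obtain ⟨hr0, hr⟩ := rootRate_spec (show 0 ≤ 27 / 4 * casSum y by positivity)
    have hq : 4 / 5 ≤ Real.sqrt (casSum y) :=
      Real.le_sqrt_of_sq_le (by linarith [casSum_pos h0])
    have hq2 := Real.mul_self_sqrt hS
    by_contra hcon
    push Not at hcon
    nlinarith
  set θ := (e 403 - e 402) / (8 * e 403)
  have hθ : θ * (4 * e 403) = (e 403 - e 402) / 2 := by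
    simp only [θ]
    field_simp [show e 403 ≠ 0 by linarith]
    ring
  have hθ1 : 4 * θ ≤ 1 := by
    simp only [θ]
    rw [mul_div_assoc', div_le_one (by linarith)]
    linarith
  have hθ0 : 0 ≤ θ := div_nonneg (by linarith) (by linarith)
  nlinarith [mul_le_mul_of_nonneg_left hq hθ0,
    mul_le_mul_of_nonneg_right h2 (show 0 ≤ 1 - 4 * θ by linarith)]

/-- Over the last dwell a point outside the band decays at least like `e^{-(expo t + γ) τ}`, even
against its weight. -/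
theorem exists_dwell_gap : ∃ (γ : ℝ) (j₁ : ℕ), 0 < γ ∧ ∀ (d : PathData) (r₂ β φ₀ : ℝ),
    d.Good r₂ β φ₀ → j₁ ≤ d.j₀ → ∀ (i l : ℕ), l + 1 = (d.plan (d.j₀ + i)).length →
      ∀ t ∈ band, ∀ y : Lbl, LblOK y → y ≠ 0 → y ∉ band →
        Real.sqrt (casSum y) + (expo (27 / 4) t + γ) * ((d.j₀ + i : ℕ) : ℝ) ^ 5 ≤
          freeDecay d r₂ β (ctrlEnd d i l) (segEnd d i l) y := by
  obtain ⟨γ, θ, hγ, hθ, hgap⟩ := exists_gap
  obtain ⟨C, hC⟩ := freeRate_dwell
  have h1 : ∀ᶠ j : ℕ in atTop, |C| * (13 * (j : ℝ) ^ (-(1 / 5) : ℝ)) ≤ θ / 2 ∧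
      |C| + 1 ≤ θ / 2 * (j : ℝ) := by
    have ht : Tendsto (fun j : ℕ => |C| * (13 * (j : ℝ) ^ (-(1 / 5) : ℝ))) atTop (𝓝 0) := by
      have := ((tendsto_rpow_neg_atTop (by norm_num : (0 : ℝ) < 1 / 5)).comp
        (tendsto_natCast_atTop_atTop (R := ℝ))).const_mul 13 |>.const_mul |C|
      simpa using this
    filter_upwards [ht.eventually_le_const (half_pos hθ),
      (tendsto_natCast_atTop_atTop (R := ℝ)).eventually_ge_atTop ((|C| + 1) / (θ / 2))] with j a b
    exact ⟨a, by rw [mul_comm]; exact (div_le_iff₀ (half_pos hθ)).1 b⟩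
  obtain ⟨j₁, hj₁⟩ := eventually_atTop.1 h1
  refine ⟨γ, j₁, hγ, fun d r₂ β φ₀ hd hj i l hl t ht y hy h0 hb => ?_⟩
  obtain ⟨hη, hj'⟩ := hj₁ d.j₀ hj
  set s := stageStart d i (d.plan (d.j₀ + i)).length
  set b := clusterStart d (i + 1)
  set τ := ((d.j₀ + i : ℕ) : ℝ) ^ 5 with hτ
  set q := Real.sqrt (casSum y)
  have hlt : l < (d.plan (d.j₀ + i)).length := by omega
  have hb' : b = s + τ := clusterStart_succ_eq i
  have hse : segEnd d i l = b := by rw [segEnd, if_neg (by omega)]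
  have hτj : (d.j₀ : ℝ) ≤ τ := by
    have : (1 : ℝ) ≤ ((d.j₀ + i : ℕ) : ℝ) := by exact_mod_cast one_le_idx hd i
    refine le_trans ?_ (le_self_pow₀ this (by norm_num))
    push_cast
    linarith [Nat.cast_nonneg (α := ℝ) i]
  have hs6 : (d.j₀ : ℝ) ^ 6 ≤ s := stageStart_ge hd le_rfl
  have hsb : s ≤ b := (stageEnd_lt hd i).le
  have hD := hC d r₂ β φ₀ hd y s b hy h0 hs6 hsb fun u hu k => basePar_dwell hd hu k
  obtain ⟨hc0, -, -, hg, -⟩ := seg_times hd hlt
  have hcs : ctrlEnd d i l ≤ s := by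
    have h2 := Trunc.stageStart_succ hlt
    have hε := speed_pos (one_le_idx hd i)
    rw [ctrlEnd_eq hlt, show s = stageStart d i (l + 1) by simp [s, hl], h2]
    refine add_le_add le_rfl (div_le_div_of_nonneg_right ?_ hε.le)
    simp only [StagePlan.dur]
    linarith [Nat.cast_nonneg (α := ℝ) ((d.plan (d.j₀ + i))[l]).wait,
      Nat.cast_nonneg (α := ℝ) ((d.plan (d.j₀ + i))[l]).dwell]
  have hfc : ∀ a c : ℝ, startTime r₂ ≤ a → a ≤ c →
      IntervalIntegrable (freeRate d r₂ β y) MeasureTheory.volume a c := fun a c ha hac =>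
    ContinuousOn.intervalIntegrable fun u hu => by
      rw [uIcc_of_le hac] at hu
      exact ((freeRate_spec hd y).2 u (ha.trans hu.1)).continuousAt.continuousWithinAt
  have hst : startTime r₂ ≤ ctrlEnd d i l := startTime_le hd (hg.trans hc0)
  have hsplit : ∫ u in s..b, freeRate d r₂ β y u ≤
      freeDecay d r₂ β (ctrlEnd d i l) (segEnd d i l) y := by
    rw [freeDecay, hse, ← intervalIntegral.integral_add_adjacent_intervals (hfc _ _ hst hcs)
      (hfc _ _ (hst.trans hcs) hsb)]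
    linarith [intervalIntegral.integral_nonneg (μ := MeasureTheory.volume)
      (f := freeRate d r₂ β y) hcs fun u hu => freeRate_nonneg hd y (hst.trans hu.1)]
  have hdr := drift_le hd hs6
  have hbs : b - s = τ := by rw [hb']; ring
  rw [hbs] at hD
  have hq : 0 ≤ q := Real.sqrt_nonneg _
  have hτ0 : 0 ≤ τ := le_trans (Nat.cast_nonneg _) hτj
  set η := 27 / 4 - d.scale s + (5 - pathNu d s)
  have hη0 : 0 ≤ η := by
    have := (hd.scale_mem s (by linarith)).2
    have := (hd.nu_mem s (by linarith)).2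
    simp only [η]
    linarith
  have e1 : C * q * (1 + τ * η) ≤ q * (|C| + τ * (θ / 2)) :=
    calc _ ≤ |C| * q * (1 + τ * η) :=
          mul_le_mul_of_nonneg_right (mul_le_mul_of_nonneg_right (le_abs_self C) hq)
            (add_nonneg zero_le_one (mul_nonneg hτ0 hη0))
      _ = q * (|C| + τ * (|C| * η)) := by ring
      _ ≤ _ := mul_le_mul_of_nonneg_left (add_le_add le_rfl (mul_le_mul_of_nonneg_left
          ((mul_le_mul_of_nonneg_left hdr (abs_nonneg _)).trans hη) hτ0)) hq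
  have e2 : q * (|C| + 1) ≤ q * (θ / 2 * τ) :=
    mul_le_mul_of_nonneg_left (hj'.trans (mul_le_mul_of_nonneg_left hτj (by linarith))) hq
  have e3 := mul_le_mul_of_nonneg_left (hgap t ht y hy h0 hb) hτ0
  have := (abs_le.1 hD).1
  nlinarith

end Vale.Agent.P225.Residual
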