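import Vale.Agent.P225.Assembly.Ideal
import Vale.Agent.P225.System.Residual

/-!
P225, assembly: the reference of a segment after its control, against the free diagonal.
-/

noncomputable section

namespace Vale.Agent.P225.Residual

open Matrix SU2 Set Vale.Agent.P225.Trunc
open scoped ComplexOrder Matrix.Norms.L2Operator

variable {d : PathData} {r₂ β φ₀ : ℝ}

/-- Integrals of the free rate differentiate. -/
theorem hasDerivAt_freeDecay (hd : d.Good r₂ β φ₀) (l : Lbl) {c t : ℝ} (hc : startTime r₂ < c)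
    (ht : c ≤ t) : HasDerivAt (fun u => freeDecay d r₂ β c u l) (freeRate d r₂ β l t) t := by
  obtain ⟨-, hf⟩ := freeRate_spec hd l
  have hcon : ContinuousOn (freeRate d r₂ β l) (Ioi (startTime r₂)) :=
    fun u hu => (hf u (le_of_lt hu)).continuousAt.continuousWithinAt
  exact intervalIntegral.integral_hasDerivAt_right
    ((hcon.mono fun u hu => by
      rw [uIcc_of_le ht] at hu
      exact lt_of_lt_of_le hc hu.1).intervalIntegrable)
    (hcon.stronglyMeasurableAtFilter isOpen_Ioi _ (lt_of_lt_of_le hc ht))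
    (hf t (hc.le.trans ht)).continuousAt

/-- The backward map of the free diagonal. -/
def freeQ (d : PathData) (r₂ β : ℝ) (K : ℕ) (c t : ℝ) : Op (PntK K) :=
  diagonal fun x => ((Real.exp (-freeDecay d r₂ β c t (lab x.out)) : ℝ) : ℂ)

theorem isBack_freeQ (hd : d.Good r₂ β φ₀) (K : ℕ) {c b : ℝ} (hc : startTime r₂ < c) :
    IsBack (freeDiag d r₂ β K) (freeQ d r₂ β K c) c b := by
  refine ⟨by simp [freeQ, freeDecay], fun t ht => ?_⟩
  refine (hasDerivAt_rdiag fun x : PntK K =>
    (hasDerivAt_freeDecay hd (lab x.out) hc ht.1).neg.exp).congr_deriv ?_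
  simp only [freeQ, freeDiag, Pi.neg_apply]
  rw [rdiag_mul, Matrix.diagonal_neg]
  congr 1
  funext x

  push_cast
  ring

theorem ctrlEnd_lt (hd : d.Good r₂ β φ₀) {i l : ℕ} (hl : l < (d.plan (d.j₀ + i)).length) :
    startTime r₂ < ctrlEnd d i l ∧ segStart d i l ≤ ctrlEnd d i l ∧
      ctrlEnd d i l ≤ segEnd d i l := by
  obtain ⟨hc, hc2, -, hg, -⟩ := seg_times hd hl
  have hlate := hd.pre_late
  have : 0 ≤ 2 / speed (d.j₀ + i) := div_nonneg (by norm_num) (speed_pos (one_le_idx hd i)).le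
  refine ⟨?_, hc, by linarith⟩
  unfold startTime
  linarith

/-- After the control the backward map of the reference is the free one up to the jump there. -/
theorem exists_tail (hd : d.Good r₂ β φ₀) {p : Param} (hp : InBox d p) (K i : ℕ) {l : ℕ}
    (hl : l < (d.plan (d.j₀ + i)).length) :
    ∃ Q : ℝ → Op (PntK K),
      IsBack (segRef d r₂ β p K i l) Q (ctrlEnd d i l) (segEnd d i l) ∧
      segBack d r₂ β p K i l (segEnd d i l) =
        segBack d r₂ β p K i l (ctrlEnd d i l) * Q (segEnd d i l) ∧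
      ‖segBack d r₂ β p K i l (ctrlEnd d i l)‖ ≤ 1 ∧
      ∀ M : Op (PntK K), ‖Q (segEnd d i l) * M‖ ≤
        ‖freeQ d r₂ β K (ctrlEnd d i l) (segEnd d i l) * M‖ +
          1 / (49 / 10) * ‖(segRef d r₂ β p K i l (ctrlEnd d i l) -
              freeDiag d r₂ β K (ctrlEnd d i l)) *
            (freeQ d r₂ β K (ctrlEnd d i l) (segEnd d i l) * M)‖ := by
  obtain ⟨-, hV, hVp, hR⟩ := segRef_spec hd hp K i hl
  obtain ⟨-, -, -, hg, hs⟩ := seg_times hd hl
  obtain ⟨hc0, hc, hcb⟩ := ctrlEnd_lt hd hl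
  set a := segStart d i l
  set c := ctrlEnd d i l
  set b := segEnd d i l
  set V := segRef d r₂ β p K i l
  have hVc : ContinuousOn V (Icc a b) := riccati_cont hV
  have hsub : Icc c b ⊆ Icc a b := Icc_subset_Icc_left hc
  obtain ⟨Q, hQ⟩ := exists_back (W := V) (hVc.mono hsub)
  refine ⟨Q, hQ, back_trans hVc hc hcb hR hQ b (right_mem_Icc.2 hcb), ?_, fun M => ?_⟩
  · exact back_norm_le_one hVc hR hVp c ⟨hc, hcb⟩
  set e : ℝ → ℝ := fun u => Real.exp (-∫ w in c..u, pathDamp d w) with he
  have hνc := pathDamp_cont hd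
  have hed : ∀ t, HasDerivAt e (-pathDamp d t * e t) t := fun t =>
    ((hνc.integral_hasStrictDerivAt c t).hasDerivAt.fun_neg.exp).congr_deriv (by
      simp only [he]; ring)
  have hgc : (d.j₀ : ℝ) ^ 6 ≤ c := hg.trans hc
  have key := back_segment (A := truncOp d p K) (W := V) (V := freeDiag d r₂ β K) (R := Q)
    (P := fun u => (Q u)ᴴ) (Q := freeQ d r₂ β K c) (ν := pathDamp d) (e := e) (a := c) (b := b)
    hνc.continuousOn (fun t ht => hV t (hsub ht))
    (freeDiag_riccati hd (hs.trans hc) fun t ht => seg_op_tail hd p K hl ht) hQ.2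
    (fun t ht => ((hQ.2 t ht).star).congr_deriv (by
      rw [star_neg, star_mul, (hVp t (hsub ht)).1.star_eq]; rfl))
    (isBack_freeQ hd K hc0).2 (fun t _ => hed t) (by simp [he]) hQ.1
    (by simp [hQ.1]) (isBack_freeQ hd K hc0 (b := b)).1 b (right_mem_Icc.2 hcb)
  have hQ1 : ∀ u ∈ Icc c b, ‖Q u‖ ≤ 1 :=
    back_norm_le_one (hVc.mono hsub) hQ fun u hu => hVp u (hsub hu)
  have hG : ‖segG e Q (fun u => (Q u)ᴴ) c b‖ ≤ 1 / (49 / 10) := by
    refine segG_norm_le hcb (by norm_num) (fun u hu => ?_) hQ1 fun u hu => ?_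
    · rw [abs_of_pos (Real.exp_pos _), Real.exp_le_exp]
      have h1 : ∫ _w in c..u, (49 / 10 : ℝ) ≤ ∫ w in c..u, pathDamp d w :=
        intervalIntegral.integral_mono_on hu.1 intervalIntegrable_const
          (hνc.intervalIntegrable _ _) fun w hw => damp_ge hd (hgc.trans hw.1)
      rw [intervalIntegral.integral_const, smul_eq_mul] at h1
      linarith
    · rw [← star_eq_conjTranspose, norm_star]; exact hQ1 u hu
  rw [key, sub_mul]
  refine (norm_sub_le _ _).trans (add_le_add le_rfl ?_)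
  rw [mul_assoc, mul_assoc]
  exact (norm_mul_le _ _).trans (mul_le_mul_of_nonneg_right hG (norm_nonneg _))

/-- The residual factor of a segment is bounded by the residual at its start. -/
theorem norm_segErr_le (hd : d.Good r₂ β φ₀) {p : Param} (hp : InBox d p) (K i : ℕ) {l : ℕ}
    (hl : l < (d.plan (d.j₀ + i)).length) :
    ‖segErr d r₂ β p K i l‖ ≤ 1 / (49 / 10) *
      ‖truncW d r₂ β p (K + 40) (segStart d i l) -
        freeDiag d r₂ β (K + 40) (segStart d i l)‖ := by
  obtain ⟨-, -, -, hg, hs⟩ := seg_times hd hl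
  obtain ⟨hW, hWp⟩ := (truncW_spec hd hp (K + 40)).2 (segEnd d i l)
  have hab := seg_le hd hl
  set a := segStart d i l
  set b := segEnd d i l
  have hR := truncBack_spec hd hp (K + 40) hs b
  have hW' : ∀ t ∈ Icc a b, (truncW d r₂ β p (K + 40) t).PosSemidef :=
    fun t ht => hWp t ⟨hs.trans ht.1, ht.2⟩
  have hR1 : ∀ u ∈ Icc a b, ‖truncBack d r₂ β p (K + 40) a u‖ ≤ 1 :=
    back_norm_le_one ((riccati_cont hW).mono (Icc_subset_Icc_left hs)) hR hW'
  refine (norm_mul_le _ _).trans (mul_le_mul_of_nonneg_right ?_ (norm_nonneg _))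
  refine segG_norm_le hab (by norm_num) (fun u hu => ?_) hR1 fun u hu => ?_
  · rw [abs_of_pos (Real.exp_pos _), Real.exp_le_exp]
    have h1 : ∫ _w in a..u, (49 / 10 : ℝ) ≤ ∫ w in a..u, pathDamp d w :=
      intervalIntegral.integral_mono_on hu.1 intervalIntegrable_const
        ((pathDamp_cont hd).intervalIntegrable _ _) fun w hw => damp_ge hd (hg.trans hw.1)
    rw [intervalIntegral.integral_const, smul_eq_mul] at h1
    linarith
  · rw [← star_eq_conjTranspose, norm_star]; exact hR1 u hu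

end Vale.Agent.P225.Residual
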